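import Vale.Agent.Lib.Helper2.P302.InfDefs

/-!
The integral side of the gadget family: sizes, bounds for the weights and the capacities, and
the bound for the number of bins which can receive pairs at the same time.

The step from a gadget to the next one is an application of the level step for pairs in bins;
the condition on the seven heavy items and the three large bins is transferred to one fixed
instance with seven items and three bins, where it is checked by evaluation.
-/

namespace Vale.Agent.Lib.Helper2.Inf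

open Finset
open Vale.Agent.Lib.Helper2.PiB

/-- The amount by which the heavy item number `j` (`1 ≤ j ≤ 7`) stays below the top weight. -/
def off (j : ℕ) : ℕ := [0, 15, 14, 13, 8, 7, 1, 0].getD j 0

theorem off_le (j : ℕ) : off j ≤ 15 := by
  unfold off
  rcases j with _ | _ | _ | _ | _ | _ | _ | _ | j <;> simp

/-- The weights of the fixed instance: seven items `1, …, 7` of weight `100 - off j`. -/
def w0 (j : ℕ) : ℕ := 100 - off j

/-- The capacities of the fixed instance. -/
def c0 (b : ℕ) : ℕ := [172, 184, 189].getD b 0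

theorem c0_zero : c0 0 = 172 := rfl
theorem c0_one : c0 1 = 184 := rfl
theorem c0_two : c0 2 = 189 := rfl

/-- In the fixed instance the three bins cannot all receive pairs. -/
theorem noTriple0 : NoTriple w0 c0 (Finset.Ico 1 8) 0 1 2 := by decide +kernel

/-- Transfer of the condition on three bins along an injective map of the items which keeps
fitting pairs fitting. -/
theorem noTriple_transfer (w c w' c' : ℕ → ℕ) (L L' : Finset ℕ) (a1 a2 a3 b1 b2 b3 : ℕ)
    (φ : ℕ → ℕ) (hφ : ∀ x ∈ L, φ x ∈ L') (hinj : ∀ x ∈ L, ∀ y ∈ L, φ x = φ y → x = y)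
    (h1 : ∀ x ∈ L, ∀ y ∈ L, w x + w y ≤ c a1 → w' (φ x) + w' (φ y) ≤ c' b1)
    (h2 : ∀ x ∈ L, ∀ y ∈ L, w x + w y ≤ c a2 → w' (φ x) + w' (φ y) ≤ c' b2)
    (h3 : ∀ x ∈ L, ∀ y ∈ L, w x + w y ≤ c a3 → w' (φ x) + w' (φ y) ≤ c' b3)
    (h0 : NoTriple w' c' L' b1 b2 b3) : NoTriple w c L a1 a2 a3 := by
  intro x1 hx1 x2 hx2 hx y1 hy1 y2 hy2 hy z1 hz1 z2 hz2 hz
  have ne : ∀ x ∈ L, ∀ y ∈ L, x ≠ y → φ x ≠ φ y :=
    fun x hx y hy hne h => hne (hinj x hx y hy h)
  exact h0 (φ x1) (hφ x1 hx1) (φ x2) (hφ x2 hx2) ⟨ne _ hx1 _ hx2 hx.1, h1 _ hx1 _ hx2 hx.2⟩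
    (φ y1) (hφ y1 hy1) (φ y2) (hφ y2 hy2)
    ⟨ne _ hy1 _ hy2 hy.1, ne _ hy1 _ hx1 hy.2.1, ne _ hy1 _ hx2 hy.2.2.1,
      ne _ hy2 _ hx1 hy.2.2.2.1, ne _ hy2 _ hx2 hy.2.2.2.2.1, h2 _ hy1 _ hy2 hy.2.2.2.2.2⟩
    (φ z1) (hφ z1 hz1) (φ z2) (hφ z2 hz2)
    ⟨ne _ hz1 _ hz2 hz.1, ne _ hz1 _ hx1 hz.2.1, ne _ hz1 _ hx2 hz.2.2.1,
      ne _ hz2 _ hx1 hz.2.2.2.1, ne _ hz2 _ hx2 hz.2.2.2.2.1, ne _ hz1 _ hy1 hz.2.2.2.2.2.1,
      ne _ hz1 _ hy2 hz.2.2.2.2.2.2.1, ne _ hz2 _ hy1 hz.2.2.2.2.2.2.2.1,
      ne _ hz2 _ hy2 hz.2.2.2.2.2.2.2.2.1, h3 _ hz1 _ hz2 hz.2.2.2.2.2.2.2.2.2⟩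

theorem next_w_old (G : Gadget) (jk H i : ℕ) (h : i < G.N) :
    (G.next jk H).w i = G.w i + (H + 16) := by
  simp [Gadget.next, h]

theorem next_w_z (G : Gadget) (jk H : ℕ) : (G.next jk H).w G.N = 0 := by
  simp [Gadget.next]

theorem next_w_heavy (G : Gadget) (jk H x : ℕ) (h1 : G.N < x) (h2 : x < G.N + 8) :
    (G.next jk H).w x = 4 * (H + (H + 16)) - off (x - G.N) := by
  obtain ⟨j, rfl⟩ : ∃ j, x = G.N + j := ⟨x - G.N, by omega⟩
  have hj1 : 0 < j := by omega
  have hj2 : j < 8 := by omega
  interval_cases j <;> simp [Gadget.next, off]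

theorem next_c_old (G : Gadget) (jk H b : ℕ) (h : b < G.m) :
    (G.next jk H).c b = G.c b + 2 * (H + 16) := by
  simp [Gadget.next, h]

theorem next_c_sm (G : Gadget) (jk H : ℕ) : (G.next jk H).c G.m = G.w jk + (H + 16) := by
  simp [Gadget.next]

theorem next_c_tp (G : Gadget) (jk H : ℕ) :
    (G.next jk H).c (G.m + 1) = 4 * (H + (H + 16)) := by
  simp [Gadget.next]

theorem next_c_a1 (G : Gadget) (jk H : ℕ) :
    (G.next jk H).c (G.m + 2) = 2 * (4 * (H + (H + 16))) - 28 := by
  simp [Gadget.next]

theorem next_c_a2 (G : Gadget) (jk H : ℕ) :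
    (G.next jk H).c (G.m + 3) = 2 * (4 * (H + (H + 16))) - 16 := by
  simp [Gadget.next]

theorem next_c_a3 (G : Gadget) (jk H : ℕ) :
    (G.next jk H).c (G.m + 4) = 2 * (4 * (H + (H + 16))) - 11 := by
  simp [Gadget.next]

/-- The step: if at most `t` bins of a gadget with at most `2 t + 3` items can receive pairs at
the same time, then at most `t + 4` bins of the next gadget can. -/
theorem next_int (G : Gadget) (jk H t : ℕ) (hjk : jk < G.N) (hw : ∀ i, i < G.N → G.w i ≤ H)
    (hc : ∀ b, b < G.m → G.c b ≤ H) (hN : G.N ≤ 2 * t + 3) (hG : G.IntBound t) :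
    (G.next jk H).IntBound (t + 4) := by
  intro S f g hP
  have hwj := hw jk hjk
  have key : S.card + 1 ≤ (t + 1) + 4 := by
    refine level_step (G.next jk H).w (G.next jk H).c (range G.N) (range G.m)
      (Finset.Ico (G.N + 1) (G.N + 8)) (range (G.N + 8)) (range (G.m + 5))
      G.N G.m (G.m + 1) (G.m + 2) (G.m + 3) (G.m + 4) (t + 1)
      ?_ ?_ ?_ ?_ ?_ ?_ ?_ ?_ ?_ ?_ ?_ ?_ ?_ S f g hP
    · ext x
      simp only [mem_range, mem_union, mem_insert, mem_Ico]
      omega
    · ext x
      simp only [mem_range, mem_union, mem_insert, mem_singleton]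
      omega
    · rw [card_range]
      omega
    · simp
    · omega
    · omega
    · omega
    · omega
    · intro l hl i _ b hb
      rw [mem_Ico] at hl
      have hl' := next_w_heavy G jk H l (by omega) hl.2
      have ho := off_le (l - G.N)
      rw [mem_insert, mem_range] at hb
      rcases hb with rfl | hb
      · rw [next_c_sm, hl']
        omega
      · rw [next_c_old G jk H b hb, hl']
        have := hc b hb
        omega
    · intro l hl i hi
      rw [mem_Ico] at hl
      have hl' := next_w_heavy G jk H l (by omega) hl.2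
      have ho := off_le (l - G.N)
      rw [next_c_tp, hl']
      rw [mem_union, mem_range, mem_Ico] at hi
      rcases hi with hi | hi
      · rw [next_w_old G jk H i hi]
        omega
      · rw [next_w_heavy G jk H i (by omega) hi.2]
        have := off_le (i - G.N)
        omega
    · intro i hi j hj _
      rw [mem_range] at hi hj
      rw [next_c_sm, next_w_old G jk H i hi, next_w_old G jk H j hj]
      omega
    · refine noTriple_transfer _ _ w0 c0 _ (Finset.Ico 1 8) _ _ _ 0 1 2 (fun x => x - G.N)
        ?_ ?_ ?_ ?_ ?_ noTriple0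
      · intro x hx
        rw [mem_Ico] at hx ⊢
        omega
      · intro x hx y hy h
        rw [mem_Ico] at hx hy
        omega
      · intro x hx y hy h
        rw [mem_Ico] at hx hy
        rw [next_w_heavy G jk H x (by omega) hx.2, next_w_heavy G jk H y (by omega) hy.2,
          next_c_a1] at h
        have := off_le (x - G.N)
        have := off_le (y - G.N)
        rw [c0_zero]
        show 100 - off (x - G.N) + (100 - off (y - G.N)) ≤ 172
        omega
      · intro x hx y hy h
        rw [mem_Ico] at hx hy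
        rw [next_w_heavy G jk H x (by omega) hx.2, next_w_heavy G jk H y (by omega) hy.2,
          next_c_a2] at h
        have := off_le (x - G.N)
        have := off_le (y - G.N)
        rw [c0_one]
        show 100 - off (x - G.N) + (100 - off (y - G.N)) ≤ 184
        omega
      · intro x hx y hy h
        rw [mem_Ico] at hx hy
        rw [next_w_heavy G jk H x (by omega) hx.2, next_w_heavy G jk H y (by omega) hy.2,
          next_c_a3] at h
        have := off_le (x - G.N)
        have := off_le (y - G.N)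
        rw [c0_two]
        show 100 - off (x - G.N) + (100 - off (y - G.N)) ≤ 189
        omega
    · intro S' f' g' hP'
      have hP0 : Placed G.w G.c (range G.N) (range G.m) S' f' g' := by
        refine ⟨hP'.sub, hP'.memf, hP'.memg, hP'.ne, ?_, hP'.disj⟩
        intro b hb
        have hb' := mem_range.1 (hP'.sub hb)
        have hf := mem_range.1 (hP'.memf b hb)
        have hg := mem_range.1 (hP'.memg b hb)
        have h := hP'.fit b hb
        rw [next_w_old G jk H _ hf, next_w_old G jk H _ hg, next_c_old G jk H b hb'] at h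
        omega
      have := hG S' f' g' hP0
      omega
  omega

theorem gdata_succ (k : ℕ) : gdata (k + 1) =
    ⟨(gdata k).G.next (gdata k).jk (gdata k).H, (gdata k).G.N + 7,
      8 * ((gdata k).H + ((gdata k).H + 16))⟩ := rfl

theorem gdata_m (k : ℕ) : (gdata k).G.m = 5 * k + 3 := by
  induction k with
  | zero => rfl
  | succ k ih =>
    rw [gdata_succ]
    show (gdata k).G.m + 5 = 5 * (k + 1) + 3
    omega

theorem gdata_N (k : ℕ) : (gdata k).G.N = 8 * k + 7 := by
  induction k with
  | zero => rfl
  | succ k ih =>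
    rw [gdata_succ]
    show (gdata k).G.N + 8 = 8 * (k + 1) + 7
    omega

theorem gdata_jk (k : ℕ) : (gdata k).jk < (gdata k).G.N := by
  cases k with
  | zero => show 6 < 7; omega
  | succ k =>
    rw [gdata_succ]
    show (gdata k).G.N + 7 < (gdata k).G.N + 8
    omega

theorem gdata_w_le (k i : ℕ) (hi : i < (gdata k).G.N) : (gdata k).G.w i ≤ (gdata k).H := by
  induction k generalizing i with
  | zero =>
    have hi' : i < 7 := hi
    show [17, 19, 20, 21, 23, 24, 24].getD i 0 ≤ 46
    interval_cases i <;> simp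
  | succ k ih =>
    rw [gdata_succ] at hi ⊢
    have hi' : i < (gdata k).G.N + 8 := hi
    show ((gdata k).G.next (gdata k).jk (gdata k).H).w i ≤ 8 * ((gdata k).H + ((gdata k).H + 16))
    by_cases h1 : i < (gdata k).G.N
    · rw [next_w_old _ _ _ _ h1]
      have := ih i h1
      omega
    · by_cases h2 : i = (gdata k).G.N
      · rw [h2, next_w_z]
        omega
      · rw [next_w_heavy _ _ _ _ (by omega) hi']
        omega

theorem gdata_c_le (k b : ℕ) (hb : b < (gdata k).G.m) : (gdata k).G.c b ≤ (gdata k).H := by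
  induction k generalizing b with
  | zero =>
    have hb' : b < 3 := hb
    show [38, 41, 46].getD b 0 ≤ 46
    interval_cases b <;> simp
  | succ k ih =>
    have hwj := gdata_w_le k _ (gdata_jk k)
    rw [gdata_succ] at hb ⊢
    have hb' : b < (gdata k).G.m + 5 := hb
    show ((gdata k).G.next (gdata k).jk (gdata k).H).c b ≤ 8 * ((gdata k).H + ((gdata k).H + 16))
    by_cases h1 : b < (gdata k).G.m
    · rw [next_c_old _ _ _ _ h1]
      have := ih b h1
      omega
    · obtain ⟨j, rfl⟩ : ∃ j, b = (gdata k).G.m + j := ⟨b - (gdata k).G.m, by omega⟩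
      have hj : j < 5 := by omega
      interval_cases j
      · rw [Nat.add_zero, next_c_sm]
        omega
      · rw [next_c_tp]
        omega
      · rw [next_c_a1]
        omega
      · rw [next_c_a2]
        omega
      · rw [next_c_a3]
        omega

/-- At most two of the three bins of the first gadget can receive pairs at the same time. -/
theorem gdata_int_zero : (gdata 0).G.IntBound 2 := by
  intro S f g hP
  have h := base_step (gdata 0).G.w (gdata 0).G.c (range 7) (range 3) 0 1 2 (by decide)
    (by decide) (by decide) (by decide) (by decide +kernel) S f g hP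
  omega

theorem gdata_int (k : ℕ) : (gdata k).G.IntBound (4 * k + 2) := by
  induction k with
  | zero => exact gdata_int_zero
  | succ k ih =>
    rw [gdata_succ]
    have h := next_int (gdata k).G (gdata k).jk (gdata k).H (4 * k + 2) (gdata_jk k)
      (fun i hi => gdata_w_le k i hi) (fun b hb => gdata_c_le k b hb)
      (by rw [gdata_N]; omega) ih
    have e : 4 * (k + 1) + 2 = 4 * k + 2 + 4 := by omega
    rw [e]
    exact h

end Vale.Agent.Lib.Helper2.Inf
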