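import Mathlib

/-!
# One-dimensional Gaussian tail calculus

`phi` is the standard normal density, `Q` its upper tail.  We record
* `∫ max (t - s) 0 dN(t) = phi s - s * Q s` for the standard normal law `N`;
* derivative formulas for `phi` and `Q`;
* a general comparison principle `phi s ^ 2 ≤ c * Q s` on a half-line `s ≥ s0 ≥ 1`,
  reduced to the single inequality at `s0`;
* polynomial bounds for `Q`.
-/

open MeasureTheory ProbabilityTheory Set Filter Topology
open scoped Real NNReal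

namespace Vale.Agent.Lib.Helper7.Gauss1D

/-- The standard normal density. -/
noncomputable def phi (t : ℝ) : ℝ := (√(2 * π))⁻¹ * Real.exp (-(t ^ 2) / 2)

/-- The upper tail of the standard normal law. -/
noncomputable def Q (s : ℝ) : ℝ := ∫ t in Ioi s, phi t

lemma phi_eq (t : ℝ) : gaussianPDFReal 0 1 t = phi t := by
  simp [gaussianPDFReal, phi]

lemma phi_pos (t : ℝ) : 0 < phi t := by unfold phi; positivity

lemma phi_eq' (t : ℝ) : phi t = (√(2 * π))⁻¹ * Real.exp (-(1 / 2) * t ^ 2) := by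
  unfold phi; congr 2; ring

lemma continuous_phi : Continuous phi := by unfold phi; fun_prop

lemma integrable_phi : Integrable phi := by
  have h := (integrable_exp_neg_mul_sq (b := 1 / 2) (by norm_num)).const_mul (√(2 * π))⁻¹
  exact h.congr (Eventually.of_forall fun t => (phi_eq' t).symm)

lemma integrable_mul_phi : Integrable (fun t => t * phi t) := by
  have h := (integrable_mul_exp_neg_mul_sq (b := 1 / 2) (by norm_num)).const_mul (√(2 * π))⁻¹
  refine h.congr (Eventually.of_forall fun t => ?_)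
  simp only [phi_eq']; ring

lemma hasDerivAt_phi (t : ℝ) : HasDerivAt phi (-(t * phi t)) t := by
  unfold phi
  have h1 : HasDerivAt (fun t : ℝ => -(t ^ 2) / 2) (-t) t := by
    have := ((hasDerivAt_pow 2 t).neg).div_const 2
    have e : -(((2 : ℕ) : ℝ) * t ^ (2 - 1)) / 2 = -t := by norm_num; ring
    rw [e] at this
    exact this
  have := (h1.exp).const_mul (√(2 * π))⁻¹
  have e : (√(2 * π))⁻¹ * (Real.exp (-(t ^ 2) / 2) * -t)
      = -(t * ((√(2 * π))⁻¹ * Real.exp (-(t ^ 2) / 2))) := by ring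
  rw [e] at this
  exact this

lemma tendsto_phi_atTop : Tendsto phi atTop (𝓝 0) := by
  have h0 : Tendsto (fun t : ℝ => -(t ^ 2) / 2) atTop atBot := by
    have h := (tendsto_pow_atTop (α := ℝ) two_ne_zero).atTop_div_const (show (0 : ℝ) < 2 by norm_num)
    have := tendsto_neg_atTop_atBot.comp h
    refine this.congr fun t => ?_
    simp only [Function.comp_apply]; ring
  have := (Real.tendsto_exp_atBot.comp h0).const_mul (√(2 * π))⁻¹
  rw [mul_zero] at this
  exact this

lemma integral_Ioi_mul_phi (s : ℝ) : ∫ t in Ioi s, t * phi t = phi s := by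
  have := integral_Ioi_of_hasDerivAt_of_tendsto' (f := fun t => -phi t) (f' := fun t => t * phi t)
    (a := s) (m := 0) (fun x _ => by
      have := (hasDerivAt_phi x).neg
      rw [neg_neg] at this
      exact this)
    integrable_mul_phi.integrableOn (by simpa using tendsto_phi_atTop.neg)
  simpa using this

/-- The mean excess of the standard normal law over the level `s`. -/
lemma integral_max_sub (s : ℝ) :
    ∫ t, max (t - s) 0 ∂(gaussianReal 0 1) = phi s - s * Q s := by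
  rw [integral_gaussianReal_eq_integral_smul (by norm_num : (1 : ℝ≥0) ≠ 0)]
  have h : (fun t => gaussianPDFReal 0 1 t • max (t - s) 0)
      = indicator (Ioi s) (fun t => t * phi t - s * phi t) := by
    ext t
    by_cases h : s < t
    · rw [indicator_of_mem (by exact h), phi_eq, max_eq_left (sub_nonneg.2 h.le), smul_eq_mul]
      ring
    · rw [indicator_of_notMem (by exact h), max_eq_right (sub_nonpos.2 (not_lt.1 h)), smul_zero]
  rw [h, integral_indicator measurableSet_Ioi,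
    integral_sub integrable_mul_phi.integrableOn (integrable_phi.const_mul s).integrableOn,
    integral_Ioi_mul_phi, integral_const_mul]
  rfl

lemma Q_nonneg (s : ℝ) : 0 ≤ Q s :=
  setIntegral_nonneg measurableSet_Ioi fun t _ => (phi_pos t).le

lemma mul_Q_le_phi (s : ℝ) : s * Q s ≤ phi s := by
  have h := integral_max_sub s
  have h0 : 0 ≤ ∫ t, max (t - s) 0 ∂(gaussianReal 0 1) :=
    integral_nonneg fun t => le_max_right _ _
  linarith

lemma Q_zero : Q 0 = 1 / 2 := by
  unfold Q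
  simp_rw [phi_eq']
  rw [integral_const_mul, integral_gaussian_Ioi]
  have h : π / (1 / 2) = 2 * π := by ring
  rw [h]
  have h2 : √(2 * π) ≠ 0 := by positivity
  field_simp

lemma Q_eq (s : ℝ) : Q s = 1 / 2 - ∫ t in (0 : ℝ)..s, phi t := by
  have := intervalIntegral.integral_Ioi_sub_Ioi' (f := phi) (a := 0) (b := s)
    integrable_phi.integrableOn integrable_phi.integrableOn
  have h0 := Q_zero
  unfold Q at *
  linarith

lemma hasDerivAt_Q (s : ℝ) : HasDerivAt Q (-phi s) s := by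
  have h : Q = fun s => 1 / 2 - ∫ t in (0 : ℝ)..s, phi t := funext Q_eq
  rw [h]
  have := intervalIntegral.integral_hasDerivAt_right (continuous_phi.intervalIntegrable 0 s)
    (continuous_phi.stronglyMeasurableAtFilter _ _) continuous_phi.continuousAt
  exact this.const_sub (1 / 2)

lemma continuous_Q : Continuous Q :=
  continuous_iff_continuousAt.2 fun s => (hasDerivAt_Q s).continuousAt

/-- `t * phi t` is antitone on `[1, ∞)`. -/
lemma antitoneOn_mul_phi : AntitoneOn (fun t => t * phi t) (Ici 1) := by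
  have hd : ∀ t : ℝ, HasDerivAt (fun t => t * phi t) (1 * phi t + t * (-(t * phi t))) t :=
    fun t => (hasDerivAt_id t).mul (hasDerivAt_phi t)
  refine antitoneOn_of_deriv_nonpos (convex_Ici 1)
    (continuous_id.mul continuous_phi).continuousOn
    (fun t _ => (hd t).differentiableAt.differentiableWithinAt) ?_
  intro t ht
  rw [interior_Ici] at ht
  rw [(hd t).deriv]
  have h1 : (1 : ℝ) < t := ht
  have := phi_pos t
  have e : 1 * phi t + t * -(t * phi t) = phi t * (1 - t ^ 2) := by ring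
  rw [e]
  exact mul_nonpos_of_nonneg_of_nonpos this.le (by nlinarith)

lemma hasDerivAt_D (c t : ℝ) :
    HasDerivAt (fun t => c * Q t - phi t ^ 2) (phi t * (2 * (t * phi t) - c)) t := by
  have h1 := (hasDerivAt_Q t).const_mul c
  have h2 := (hasDerivAt_phi t).pow 2
  have := h1.sub h2
  have e : c * -phi t - ((2 : ℕ) : ℝ) * phi t ^ (2 - 1) * -(t * phi t)
      = phi t * (2 * (t * phi t) - c) := by norm_num; ring
  rw [e] at this
  exact this

lemma continuous_D (c : ℝ) : Continuous (fun t => c * Q t - phi t ^ 2) :=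
  continuous_iff_continuousAt.2 fun t => (hasDerivAt_D c t).continuousAt

/-- Comparison principle: if `phi s0 ^ 2 ≤ c * Q s0` for some `s0 ≥ 1`, then
`phi s ^ 2 ≤ c * Q s` for every `s ≥ s0`. -/
lemma phi_sq_le_mul_Q {c s0 : ℝ} (hc : 0 ≤ c) (hs0 : 1 ≤ s0) (h0 : phi s0 ^ 2 ≤ c * Q s0)
    {s : ℝ} (hs : s0 ≤ s) : phi s ^ 2 ≤ c * Q s := by
  set D : ℝ → ℝ := fun t => c * Q t - phi t ^ 2 with hD
  have hd : ∀ t : ℝ, HasDerivAt D (phi t * (2 * (t * phi t) - c)) t := hasDerivAt_D c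
  have hDc : Continuous D := continuous_D c
  suffices h : 0 ≤ D s by simp only [hD] at h; linarith
  rcases le_or_gt (2 * (s * phi s)) c with hA | hB
  · -- D is antitone on `[s, ∞)` and bounded below by `-(phi t)^2`, which tends to `0`
    have hanti : AntitoneOn D (Ici s) := by
      refine antitoneOn_of_deriv_nonpos (convex_Ici s) hDc.continuousOn
        (fun t _ => (hd t).differentiableAt.differentiableWithinAt) ?_
      intro t ht
      rw [interior_Ici] at ht
      rw [(hd t).deriv]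
      have h1 : s < t := ht
      have h2 : t * phi t ≤ s * phi s :=
        antitoneOn_mul_phi (show s ∈ Ici (1 : ℝ) from le_trans hs0 hs)
          (show t ∈ Ici (1 : ℝ) from le_trans (le_trans hs0 hs) h1.le) h1.le
      have := phi_pos t
      exact mul_nonpos_of_nonneg_of_nonpos this.le (by linarith)
    have hlim : Tendsto (fun t => -(phi t ^ 2)) atTop (𝓝 0) := by
      have := (tendsto_phi_atTop.pow 2).neg
      simpa using this
    refine le_of_tendsto hlim ?_
    filter_upwards [eventually_ge_atTop s] with t ht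
    have h1 : D t ≤ D s := hanti (self_mem_Ici) ht ht
    have h2 : -(phi t ^ 2) ≤ D t := by
      simp only [hD]
      have := mul_nonneg hc (Q_nonneg t)
      linarith
    linarith
  · -- D is monotone on `[s0, s]`
    have hmono : MonotoneOn D (Icc s0 s) := by
      refine monotoneOn_of_deriv_nonneg (convex_Icc s0 s) hDc.continuousOn
        (fun t _ => (hd t).differentiableAt.differentiableWithinAt) ?_
      intro t ht
      rw [interior_Icc] at ht
      rw [(hd t).deriv]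
      have h2 : s * phi s ≤ t * phi t :=
        antitoneOn_mul_phi (show t ∈ Ici (1 : ℝ) from le_trans hs0 ht.1.le)
          (show s ∈ Ici (1 : ℝ) from le_trans hs0 hs) ht.2.le
      have := phi_pos t
      exact mul_nonneg this.le (by linarith)
    have h1 : D s0 ≤ D s := hmono (left_mem_Icc.2 hs) (right_mem_Icc.2 hs) hs
    have h2 : 0 ≤ D s0 := by simp only [hD]; linarith
    linarith

/-- `t * phi t` is monotone on `[0, 1]`. -/
lemma monotoneOn_mul_phi : MonotoneOn (fun t => t * phi t) (Icc 0 1) := by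
  have hd : ∀ t : ℝ, HasDerivAt (fun t => t * phi t) (1 * phi t + t * (-(t * phi t))) t :=
    fun t => (hasDerivAt_id t).mul (hasDerivAt_phi t)
  refine monotoneOn_of_deriv_nonneg (convex_Icc 0 1)
    (continuous_id.mul continuous_phi).continuousOn
    (fun t _ => (hd t).differentiableAt.differentiableWithinAt) ?_
  intro t ht
  rw [interior_Icc] at ht
  rw [(hd t).deriv]
  have := phi_pos t
  have e : 1 * phi t + t * -(t * phi t) = phi t * (1 - t ^ 2) := by ring
  rw [e]
  exact mul_nonneg this.le (by nlinarith [ht.1, ht.2])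

lemma antitoneOn_phi : AntitoneOn phi (Ici 0) := by
  refine antitoneOn_of_deriv_nonpos (convex_Ici 0) continuous_phi.continuousOn
    (fun t _ => (hasDerivAt_phi t).differentiableAt.differentiableWithinAt) ?_
  intro t ht
  rw [interior_Ici] at ht
  rw [(hasDerivAt_phi t).deriv]
  have h1 : (0 : ℝ) < t := ht
  have := phi_pos t
  nlinarith [mul_pos h1 this]

lemma antitone_Q : Antitone Q := by
  refine antitone_of_deriv_nonpos (fun t => (hasDerivAt_Q t).differentiableAt) ?_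
  intro t
  rw [(hasDerivAt_Q t).deriv]
  linarith [phi_pos t]

/-- Comparison principle on the whole half-line `s ≥ 0`: it is enough to bracket the critical
point of `c * Q - phi ^ 2` in `[0, 1]` between `a` and `b`. -/
lemma phi_sq_le_mul_Q_of_bracket {c a b : ℝ} (hc : 0 ≤ c) (ha : 0 ≤ a) (hab : a ≤ b)
    (hb : b ≤ 1) (h1 : 2 * (a * phi a) ≤ c) (h2 : c ≤ 2 * (b * phi b))
    (h3 : phi a ^ 2 ≤ c * Q b) {s : ℝ} (hs : 0 ≤ s) : phi s ^ 2 ≤ c * Q s := by
  set D : ℝ → ℝ := fun t => c * Q t - phi t ^ 2 with hD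
  have hd : ∀ t : ℝ, HasDerivAt D (phi t * (2 * (t * phi t) - c)) t := hasDerivAt_D c
  have hDc : Continuous D := continuous_D c
  have hb0 : 0 ≤ b := le_trans ha hab
  -- the three regimes inside `[0, 1]`
  have key : ∀ t : ℝ, 0 ≤ t → t ≤ 1 → 0 ≤ D t := by
    intro t ht0 ht1
    rcases le_total t a with hta | hta
    · -- D is antitone on `[t, a]`
      have hanti : AntitoneOn D (Icc t a) := by
        refine antitoneOn_of_deriv_nonpos (convex_Icc t a) hDc.continuousOn
          (fun x _ => (hd x).differentiableAt.differentiableWithinAt) ?_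
        intro x hx
        rw [interior_Icc] at hx
        rw [(hd x).deriv]
        have hx0 : 0 ≤ x := le_trans ht0 hx.1.le
        have hx1 : x ≤ 1 := le_trans hx.2.le (le_trans hab hb)
        have h4 : x * phi x ≤ a * phi a :=
          monotoneOn_mul_phi ⟨hx0, hx1⟩ ⟨ha, le_trans hab hb⟩ hx.2.le
        exact mul_nonpos_of_nonneg_of_nonpos (phi_pos x).le (by linarith)
      have h5 : D a ≤ D t := hanti (left_mem_Icc.2 hta) (right_mem_Icc.2 hta) hta
      have h6 : Q b ≤ Q a := antitone_Q hab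
      have h7 : 0 ≤ D a := by
        simp only [hD]
        have := mul_le_mul_of_nonneg_left h6 hc
        linarith
      linarith
    · rcases le_total t b with htb | htb
      · -- direct comparison on `[a, b]`
        have h6 : Q b ≤ Q t := antitone_Q htb
        have h7 : phi t ≤ phi a := antitoneOn_phi (show a ∈ Ici (0 : ℝ) from ha)
          (show t ∈ Ici (0 : ℝ) from ht0) hta
        have h8 : phi t ^ 2 ≤ phi a ^ 2 := pow_le_pow_left₀ (phi_pos t).le h7 2
        simp only [hD]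
        have := mul_le_mul_of_nonneg_left h6 hc
        linarith
      · -- D is monotone on `[b, t]`
        have hmono : MonotoneOn D (Icc b t) := by
          refine monotoneOn_of_deriv_nonneg (convex_Icc b t) hDc.continuousOn
            (fun x _ => (hd x).differentiableAt.differentiableWithinAt) ?_
          intro x hx
          rw [interior_Icc] at hx
          rw [(hd x).deriv]
          have hx0 : 0 ≤ x := le_trans hb0 hx.1.le
          have hx1 : x ≤ 1 := le_trans hx.2.le ht1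
          have h4 : b * phi b ≤ x * phi x :=
            monotoneOn_mul_phi ⟨hb0, hb⟩ ⟨hx0, hx1⟩ hx.1.le
          exact mul_nonneg (phi_pos x).le (by linarith)
        have h5 : D b ≤ D t := hmono (left_mem_Icc.2 htb) (right_mem_Icc.2 htb) htb
        have h7 : phi b ≤ phi a := antitoneOn_phi (show a ∈ Ici (0 : ℝ) from ha)
          (show b ∈ Ici (0 : ℝ) from hb0) hab
        have h8 : phi b ^ 2 ≤ phi a ^ 2 := pow_le_pow_left₀ (phi_pos b).le h7 2
        have h9 : 0 ≤ D b := by simp only [hD]; linarith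
        linarith
  rcases le_total s 1 with hs1 | hs1
  · have := key s hs hs1
    simp only [hD] at this
    linarith
  · have h0 := key 1 (by norm_num) le_rfl
    simp only [hD] at h0
    exact phi_sq_le_mul_Q hc le_rfl (by linarith) hs1

/-! ### Numerical bounds -/

lemma inv_sqrt_two_pi_pos : 0 < (√(2 * π))⁻¹ := by positivity

lemma inv_sqrt_two_pi_sq : ((√(2 * π))⁻¹) ^ 2 = 1 / (2 * π) := by
  rw [inv_pow, Real.sq_sqrt (by positivity), one_div]

lemma inv_sqrt_two_pi_le {r : ℝ} (hr : 0 ≤ r) (h : 1 ≤ 2 * π * r ^ 2) : (√(2 * π))⁻¹ ≤ r := by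
  by_contra hlt
  rw [not_le] at hlt
  have h1 : r ^ 2 < ((√(2 * π))⁻¹) ^ 2 := by
    have := mul_self_lt_mul_self hr hlt
    nlinarith
  rw [inv_sqrt_two_pi_sq, lt_div_iff₀ (by positivity)] at h1
  nlinarith

lemma le_inv_sqrt_two_pi {r : ℝ} (h : 2 * π * r ^ 2 ≤ 1) : r ≤ (√(2 * π))⁻¹ := by
  by_contra hlt
  rw [not_le] at hlt
  have h1 : ((√(2 * π))⁻¹) ^ 2 < r ^ 2 := by
    have := mul_self_lt_mul_self inv_sqrt_two_pi_pos.le hlt
    nlinarith
  rw [inv_sqrt_two_pi_sq, div_lt_iff₀ (by positivity)] at h1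
  nlinarith

lemma exp_neg_le_quadratic {u : ℝ} (hu : 0 ≤ u) : Real.exp (-u) ≤ 1 - u + u ^ 2 / 2 := by
  have h1 := Real.quadratic_le_exp_of_nonneg hu
  have hpos : 0 < 1 + u + u ^ 2 / 2 := by positivity
  rw [Real.exp_neg]
  calc (Real.exp u)⁻¹ ≤ (1 + u + u ^ 2 / 2)⁻¹ := inv_anti₀ hpos h1
    _ ≤ 1 - u + u ^ 2 / 2 := by
      rw [inv_le_iff_one_le_mul₀ hpos]
      nlinarith [sq_nonneg (u ^ 2)]

/-- A polynomial lower bound for the tail. -/
lemma Q_ge {s : ℝ} (hs : 0 ≤ s) :
    1 / 2 - (√(2 * π))⁻¹ * (s - s ^ 3 / 6 + s ^ 5 / 40) ≤ Q s := by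
  rw [Q_eq]
  have hF : ∀ t : ℝ, HasDerivAt (fun t : ℝ => (√(2 * π))⁻¹ * (t - t ^ 3 / 6 + t ^ 5 / 40))
      ((√(2 * π))⁻¹ * (1 - (t ^ 2 / 2) + (t ^ 2 / 2) ^ 2 / 2)) t := by
    intro t
    have := ((((hasDerivAt_id t).sub ((hasDerivAt_pow 3 t).div_const 6)).add
      ((hasDerivAt_pow 5 t).div_const 40))).const_mul (√(2 * π))⁻¹
    have e : (√(2 * π))⁻¹ * (1 - ((3 : ℕ) : ℝ) * t ^ (3 - 1) / 6 + ((5 : ℕ) : ℝ) * t ^ (5 - 1) / 40)
        = (√(2 * π))⁻¹ * (1 - (t ^ 2 / 2) + (t ^ 2 / 2) ^ 2 / 2) := by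
      congr 1
      have e3 : (3 - 1 : ℕ) = 2 := rfl
      have e5 : (5 - 1 : ℕ) = 4 := rfl
      rw [e3, e5]
      push_cast
      ring
    rw [e] at this
    exact this
  have hcont : Continuous (fun t : ℝ => (√(2 * π))⁻¹ * (1 - (t ^ 2 / 2) + (t ^ 2 / 2) ^ 2 / 2)) := by
    fun_prop
  have h1 : ∫ t in (0 : ℝ)..s, (√(2 * π))⁻¹ * (1 - (t ^ 2 / 2) + (t ^ 2 / 2) ^ 2 / 2)
      = (√(2 * π))⁻¹ * (s - s ^ 3 / 6 + s ^ 5 / 40) := by
    rw [intervalIntegral.integral_eq_sub_of_hasDerivAt (fun t _ => hF t)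
      (hcont.intervalIntegrable 0 s)]
    norm_num
  have h2 : ∫ t in (0 : ℝ)..s, phi t
      ≤ ∫ t in (0 : ℝ)..s, (√(2 * π))⁻¹ * (1 - (t ^ 2 / 2) + (t ^ 2 / 2) ^ 2 / 2) := by
    refine intervalIntegral.integral_mono_on hs (continuous_phi.intervalIntegrable 0 s)
      (hcont.intervalIntegrable 0 s) ?_
    intro t _
    unfold phi
    have h3 := exp_neg_le_quadratic (u := t ^ 2 / 2) (by positivity)
    have e : -(t ^ 2) / 2 = -(t ^ 2 / 2) := by ring
    rw [e]
    exact mul_le_mul_of_nonneg_left h3 inv_sqrt_two_pi_pos.le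
  linarith

lemma exp_neg_bound5 {u : ℝ} (h0 : 0 ≤ u) (h1 : u ≤ 1) :
    |Real.exp (-u) - (1 - u + u ^ 2 / 2 - u ^ 3 / 6 + u ^ 4 / 24)| ≤ u ^ 5 / 100 := by
  have h := Real.exp_bound (x := -u) (by rw [abs_neg, abs_of_nonneg h0]; exact h1) (n := 5)
    (by norm_num)
  have e : ∑ m ∈ Finset.range 5, (-u) ^ m / (m.factorial : ℝ)
      = 1 - u + u ^ 2 / 2 - u ^ 3 / 6 + u ^ 4 / 24 := by
    simp [Finset.sum_range_succ, Nat.factorial]
    ring
  rw [e, abs_neg, abs_of_nonneg h0] at h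
  have e2 : u ^ 5 * (((5 : ℕ).succ : ℝ) / (((5 : ℕ).factorial : ℝ) * ((5 : ℕ) : ℝ)))
      = u ^ 5 / 100 := by
    norm_num [Nat.factorial]
    ring
  rw [e2] at h
  exact h

/-- Two-sided polynomial bounds for the density on `[0, √2]`. -/
lemma phi_le_poly {s : ℝ} (hs1 : s ^ 2 / 2 ≤ 1) :
    phi s ≤ (√(2 * π))⁻¹ * (1 - (s ^ 2 / 2) + (s ^ 2 / 2) ^ 2 / 2 - (s ^ 2 / 2) ^ 3 / 6
      + (s ^ 2 / 2) ^ 4 / 24 + (s ^ 2 / 2) ^ 5 / 100) := by
  unfold phi
  have h3 := exp_neg_bound5 (u := s ^ 2 / 2) (by positivity) hs1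
  have e : -(s ^ 2) / 2 = -(s ^ 2 / 2) := by ring
  rw [e]
  refine mul_le_mul_of_nonneg_left ?_ inv_sqrt_two_pi_pos.le
  have := (abs_le.1 h3).2
  linarith

lemma poly_le_phi {s : ℝ} (hs1 : s ^ 2 / 2 ≤ 1) :
    (√(2 * π))⁻¹ * (1 - (s ^ 2 / 2) + (s ^ 2 / 2) ^ 2 / 2 - (s ^ 2 / 2) ^ 3 / 6
      + (s ^ 2 / 2) ^ 4 / 24 - (s ^ 2 / 2) ^ 5 / 100) ≤ phi s := by
  unfold phi
  have h3 := exp_neg_bound5 (u := s ^ 2 / 2) (by positivity) hs1
  have e : -(s ^ 2) / 2 = -(s ^ 2 / 2) := by ring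
  rw [e]
  refine mul_le_mul_of_nonneg_left ?_ inv_sqrt_two_pi_pos.le
  have := (abs_le.1 h3).1
  linarith

/-- A sharper polynomial lower bound for the tail on `[0, √2]`. -/
lemma Q_ge5 {s : ℝ} (hs : 0 ≤ s) (hs1 : s ^ 2 / 2 ≤ 1) :
    1 / 2 - (√(2 * π))⁻¹ * (s - s ^ 3 / 6 + s ^ 5 / 40 - s ^ 7 / 336 + s ^ 9 / 3456
      + s ^ 11 / 35200) ≤ Q s := by
  rw [Q_eq]
  have hF : ∀ t : ℝ, HasDerivAt (fun t : ℝ => (√(2 * π))⁻¹ * (t - t ^ 3 / 6 + t ^ 5 / 40
        - t ^ 7 / 336 + t ^ 9 / 3456 + t ^ 11 / 35200))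
      ((√(2 * π))⁻¹ * (1 - (t ^ 2 / 2) + (t ^ 2 / 2) ^ 2 / 2 - (t ^ 2 / 2) ^ 3 / 6
      + (t ^ 2 / 2) ^ 4 / 24 + (t ^ 2 / 2) ^ 5 / 100)) t := by
    intro t
    have := ((((((hasDerivAt_id t).sub ((hasDerivAt_pow 3 t).div_const 6)).add
      ((hasDerivAt_pow 5 t).div_const 40)).sub ((hasDerivAt_pow 7 t).div_const 336)).add
      ((hasDerivAt_pow 9 t).div_const 3456)).add
      ((hasDerivAt_pow 11 t).div_const 35200)).const_mul (√(2 * π))⁻¹
    have e : (√(2 * π))⁻¹ * (1 - ((3 : ℕ) : ℝ) * t ^ (3 - 1) / 6 + ((5 : ℕ) : ℝ) * t ^ (5 - 1) / 40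
          - ((7 : ℕ) : ℝ) * t ^ (7 - 1) / 336 + ((9 : ℕ) : ℝ) * t ^ (9 - 1) / 3456
          + ((11 : ℕ) : ℝ) * t ^ (11 - 1) / 35200)
        = (√(2 * π))⁻¹ * (1 - (t ^ 2 / 2) + (t ^ 2 / 2) ^ 2 / 2 - (t ^ 2 / 2) ^ 3 / 6
      + (t ^ 2 / 2) ^ 4 / 24 + (t ^ 2 / 2) ^ 5 / 100) := by
      congr 1
      have e3 : (3 - 1 : ℕ) = 2 := rfl
      have e5 : (5 - 1 : ℕ) = 4 := rfl
      have e7 : (7 - 1 : ℕ) = 6 := rfl
      have e9 : (9 - 1 : ℕ) = 8 := rfl
      have e11 : (11 - 1 : ℕ) = 10 := rfl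
      rw [e3, e5, e7, e9, e11]
      push_cast
      ring
    rw [e] at this
    exact this
  have hcont : Continuous (fun t : ℝ => (√(2 * π))⁻¹ * (1 - (t ^ 2 / 2) + (t ^ 2 / 2) ^ 2 / 2
      - (t ^ 2 / 2) ^ 3 / 6 + (t ^ 2 / 2) ^ 4 / 24 + (t ^ 2 / 2) ^ 5 / 100)) := by
    fun_prop
  have h1 : ∫ t in (0 : ℝ)..s, (√(2 * π))⁻¹ * (1 - (t ^ 2 / 2) + (t ^ 2 / 2) ^ 2 / 2
      - (t ^ 2 / 2) ^ 3 / 6 + (t ^ 2 / 2) ^ 4 / 24 + (t ^ 2 / 2) ^ 5 / 100)
      = (√(2 * π))⁻¹ * (s - s ^ 3 / 6 + s ^ 5 / 40 - s ^ 7 / 336 + s ^ 9 / 3456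
      + s ^ 11 / 35200) := by
    rw [intervalIntegral.integral_eq_sub_of_hasDerivAt (fun t _ => hF t)
      (hcont.intervalIntegrable 0 s)]
    norm_num
  have h2 : ∫ t in (0 : ℝ)..s, phi t
      ≤ ∫ t in (0 : ℝ)..s, (√(2 * π))⁻¹ * (1 - (t ^ 2 / 2) + (t ^ 2 / 2) ^ 2 / 2
      - (t ^ 2 / 2) ^ 3 / 6 + (t ^ 2 / 2) ^ 4 / 24 + (t ^ 2 / 2) ^ 5 / 100) := by
    refine intervalIntegral.integral_mono_on hs (continuous_phi.intervalIntegrable 0 s)
      (hcont.intervalIntegrable 0 s) ?_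
    intro t ht
    refine phi_le_poly ?_
    have h5 : t ^ 2 ≤ s ^ 2 := pow_le_pow_left₀ ht.1 ht.2 2
    linarith
  linarith

lemma phi_le_one (s : ℝ) : phi s ≤ 1 := by
  unfold phi
  have h1 : (√(2 * π))⁻¹ ≤ 1 :=
    inv_sqrt_two_pi_le (by norm_num) (by nlinarith [Real.pi_gt_three])
  have h2 : Real.exp (-(s ^ 2) / 2) ≤ 1 := Real.exp_le_one_iff.2 (by nlinarith [sq_nonneg s])
  have h3 : 0 ≤ Real.exp (-(s ^ 2) / 2) := (Real.exp_pos _).le
  calc (√(2 * π))⁻¹ * Real.exp (-(s ^ 2) / 2) ≤ 1 * 1 :=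
        mul_le_mul h1 h2 h3 (by norm_num)
    _ = 1 := by norm_num

/-- Every value in the interval from 0 (excluded) to Q s0 is attained by Q on the half-line from s0. -/
lemma exists_Q_eq {s0 p : ℝ} (hp : 0 < p) (hp' : p ≤ Q s0) :
    ∃ s, s0 ≤ s ∧ Q s = p := by
  set b : ℝ := max s0 (1 / p) with hb
  have hb0 : s0 ≤ b := le_max_left _ _
  have hbpos : 0 < b := lt_of_lt_of_le (by positivity) (le_max_right s0 (1 / p))
  have hQb : Q b ≤ p := by
    have h1 := mul_Q_le_phi b
    have h2 := phi_le_one b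
    have h3 : 1 / p ≤ b := le_max_right _ _
    have h4 : Q b ≤ 1 / b := by
      rw [le_div_iff₀ hbpos]
      linarith
    have h5 : 1 / b ≤ p := by
      rw [div_le_iff₀ hbpos]
      rw [div_le_iff₀ hp] at h3
      linarith
    linarith
  obtain ⟨s, hs, hQs⟩ := intermediate_value_Icc' hb0 continuous_Q.continuousOn ⟨hQb, hp'⟩
  exact ⟨s, hs.1, hQs⟩

/-! ### The cell inequality in a Euclidean space -/

section
open scoped RealInnerProductSpace

variable {E : Type*} [NormedAddCommGroup E] [InnerProductSpace ℝ E] [FiniteDimensional ℝ E]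
  [MeasurableSpace E] [BorelSpace E]

/-- For every set `A` and every level `s ≥ 0`, the Gaussian first moment of `A` has norm at most
`s * γ(A) + phi s - s * Q s`. -/
lemma norm_setIntegral_le (A : Set E) {s : ℝ} (hs : 0 ≤ s) :
    ‖∫ x in A, x ∂(stdGaussian E)‖ ≤ s * (stdGaussian E).real A + phi s - s * Q s := by
  set z : E := ∫ x in A, x ∂(stdGaussian E) with hz
  by_cases hz0 : z = 0
  · rw [hz0, norm_zero]
    have h1 := mul_Q_le_phi s
    have h2 : 0 ≤ s * (stdGaussian E).real A := mul_nonneg hs measureReal_nonneg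
    linarith
  have hnz : 0 < ‖z‖ := norm_pos_iff.2 hz0
  set u : E := ‖z‖⁻¹ • z with hu
  have hu1 : ‖u‖ = 1 := by
    rw [hu, norm_smul, norm_inv, norm_norm, inv_mul_cancel₀ hnz.ne']
  have hid : IntegrableOn (fun x : E => x) A (stdGaussian E) :=
    (IsGaussian.integrable_fun_id (μ := stdGaussian E)).integrableOn
  have e1 : ‖z‖ = ∫ x in A, ⟪u, x⟫ ∂(stdGaussian E) := by
    rw [integral_inner hid u, ← hz, hu, real_inner_smul_left, real_inner_self_eq_norm_sq]
    field_simp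
  have hL : Integrable (fun x : E => ⟪u, x⟫) (stdGaussian E) := by
    have := IsGaussian.integrable_dual (stdGaussian E) (innerSL ℝ u)
    simpa [innerSL_apply_apply] using this
  have hP : Integrable (fun x : E => max (⟪u, x⟫ - s) 0) (stdGaussian E) :=
    (hL.sub (integrable_const s)).pos_part
  have e2 : ∫ x in A, ⟪u, x⟫ ∂(stdGaussian E)
      ≤ ∫ x in A, (s + max (⟪u, x⟫ - s) 0) ∂(stdGaussian E) := by
    refine setIntegral_mono hL.integrableOn ((integrable_const s).add hP).integrableOn ?_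
    intro x
    have := le_max_left (⟪u, x⟫ - s) 0
    simp only
    linarith
  have e3 : ∫ x in A, (s + max (⟪u, x⟫ - s) 0) ∂(stdGaussian E)
      = s * (stdGaussian E).real A + ∫ x in A, max (⟪u, x⟫ - s) 0 ∂(stdGaussian E) := by
    rw [integral_add (integrable_const _).integrableOn hP.integrableOn]
    simp
    ring
  have e4 : ∫ x in A, max (⟪u, x⟫ - s) 0 ∂(stdGaussian E)
      ≤ ∫ x, max (⟪u, x⟫ - s) 0 ∂(stdGaussian E) :=
    setIntegral_le_integral hP (Filter.Eventually.of_forall fun x => le_max_right _ _)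
  have hmap : (stdGaussian E).map (innerSL ℝ u) = gaussianReal 0 1 := by
    rw [IsGaussian.map_eq_gaussianReal, integral_strongDual_stdGaussian,
      variance_dual_stdGaussian, innerSL_apply_norm, hu1]
    simp
  have e5 : ∫ x, max (⟪u, x⟫ - s) 0 ∂(stdGaussian E) = phi s - s * Q s := by
    rw [← integral_max_sub s, ← hmap]
    rw [integral_map (by fun_prop) (by fun_prop)]
    simp [innerSL_apply_apply]
  linarith

end

end Vale.Agent.Lib.Helper7.Gauss1D
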