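import Vale.Agent.Lib.Helper9.P262.Lifted

/-!
# Mean squares of initial sums of rearranged zero-sum families

For a zero-sum family `v : Fin N → EuclideanSpace ℝ (Fin d)` of vectors of norm at most one there
is a rearrangement `σ` whose initial sums satisfy
`∑ k, ‖∑ i ≤ k, v (σ i)‖ ^ 2 ≤ d * N`.

Proof: take a rearrangement minimising the left side, apply the sign theorem for weighted mean
squares of initial sums to it, and pass from the signs to two new rearrangements (indices with sign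
`+` in increasing order followed by the indices with sign `-` in decreasing order, and the mirror
image). The initial sums of these are half sums and half differences of the initial sums and the
signed initial sums, which gives the bound by minimality.

The last section shows that the order `d * N` is attained: for the `2 * d` vectors consisting of the
`d` coordinate vectors and `d` copies of minus their mean, every rearrangement has
`∑ k, ‖∑ i ≤ k, v (σ i)‖ ^ 2 ≥ (d ^ 2 - 1) / 6`.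
-/

open Finset

namespace Vale.Agent.Lib.Helper7.P262S

section core

set_option linter.unusedSectionVars false

variable {E : Type*} [NormedAddCommGroup E] [NormedSpace ℝ E]

/-- sum of the squared norms of the initial sums `u 0 + ... + u k`, `k : Fin N` -/
noncomputable def Phi {N : ℕ} (u : Fin N → E) : ℝ :=
  ∑ k : Fin N, ‖∑ i ∈ Iic k, u i‖ ^ 2

theorem Phi_nonneg {N : ℕ} (u : Fin N → E) : 0 ≤ Phi u :=
  Finset.sum_nonneg fun _ _ => by positivity

/-- sorting by an injective key -/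
theorem Phi_sort {N : ℕ} (w : Fin N → E) (key : Fin N → ℕ) (hkey : Function.Injective key) :
    Phi (w ∘ Tuple.sort key)
      = ∑ m : Fin N, ‖∑ j ∈ univ.filter (fun j => key j ≤ key m), w j‖ ^ 2 := by
  have hmono : StrictMono (key ∘ Tuple.sort key) :=
    (Tuple.monotone_sort key).strictMono_of_injective (hkey.comp (Tuple.sort key).injective)
  unfold Phi
  rw [← Equiv.sum_comp (Tuple.sort key)
    (fun m => ‖∑ j ∈ univ.filter (fun j => key j ≤ key m), w j‖ ^ 2)]
  refine Finset.sum_congr rfl fun k _ => ?_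
  congr 2
  refine Finset.sum_equiv (Tuple.sort key) ?_ ?_
  · intro i
    simp only [mem_Iic, mem_filter, mem_univ, true_and]
    exact (hmono.le_iff_le (a := i) (b := k)).symm
  · intro i _
    rfl

/-- the key which lists the indices with `q` in increasing order and then the other indices in
decreasing order -/
def key {N : ℕ} (q : Fin N → Prop) [DecidablePred q] (i : Fin N) : ℕ :=
  if q i then (i : ℕ) else 2 * N - i

theorem key_injective {N : ℕ} (q : Fin N → Prop) [DecidablePred q] :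
    Function.Injective (key q) := by
  intro i j h
  unfold key at h
  have hi := i.isLt
  have hj := j.isLt
  split_ifs at h with h1 h2 h2
  · exact Fin.ext h
  · omega
  · omega
  · exact Fin.ext (by omega)

theorem sum_Iic_eq {N : ℕ} (f : Fin N → E) (m : Fin N) :
    ∑ j ∈ Iic m, f j = ∑ j, if j ≤ m then f j else 0 := by
  rw [← Finset.sum_filter]
  congr 1
  ext j
  simp

theorem sum_Iio_eq {N : ℕ} (f : Fin N → E) (m : Fin N) :
    ∑ j ∈ Iio m, f j = ∑ j, if j < m then f j else 0 := by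
  rw [← Finset.sum_filter]
  congr 1
  ext j
  simp

theorem sum_key_of {N : ℕ} (w : Fin N → E) (q : Fin N → Prop) [DecidablePred q] (m : Fin N)
    (hm : q m) :
    ∑ j ∈ univ.filter (fun j => key q j ≤ key q m), w j
      = ∑ j ∈ Iic m, if q j then w j else 0 := by
  rw [Finset.sum_filter, sum_Iic_eq]
  refine Finset.sum_congr rfl fun j _ => ?_
  have hj := j.isLt
  have hm' := m.isLt
  have hkm : key q m = m := by unfold key; rw [if_pos hm]
  rw [hkm]
  by_cases hq : q j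
  · have hkj : key q j = j := by unfold key; rw [if_pos hq]
    rw [hkj, if_pos hq]
    by_cases hle : j ≤ m
    · rw [if_pos hle, if_pos (Fin.le_iff_val_le_val.mp hle)]
    · rw [if_neg hle, if_neg (fun h => hle (Fin.le_iff_val_le_val.mpr h))]
  · have hkj : key q j = 2 * N - j := by unfold key; rw [if_neg hq]
    rw [hkj, if_neg hq, if_neg (by omega)]
    simp

theorem sum_key_not {N : ℕ} (w : Fin N → E) (hsum : ∑ j, w j = 0) (q : Fin N → Prop)
    [DecidablePred q] (m : Fin N) (hm : ¬ q m) :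
    ∑ j ∈ univ.filter (fun j => key q j ≤ key q m), w j
      = - ∑ j ∈ Iio m, if q j then 0 else w j := by
  rw [Finset.sum_filter, sum_Iio_eq]
  have hm' := m.isLt
  have hkm : key q m = 2 * N - m := by unfold key; rw [if_neg hm]
  have key1 : ∀ j : Fin N, (if key q j ≤ key q m then w j else 0)
      = w j - (if j < m then (if q j then 0 else w j) else 0) := by
    intro j
    have hj := j.isLt
    rw [hkm]
    by_cases hq : q j
    · have hkj : key q j = j := by unfold key; rw [if_pos hq]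
      rw [hkj, if_pos hq, if_pos (by omega)]
      simp
    · have hkj : key q j = 2 * N - j := by unfold key; rw [if_neg hq]
      rw [hkj, if_neg hq]
      by_cases hlt : j < m
      · have hlt' : (j : ℕ) < m := Fin.lt_def.mp hlt
        rw [if_pos hlt, if_neg (by omega)]
        simp
      · have hlt' : ¬ (j : ℕ) < m := fun h => hlt (Fin.lt_def.mpr h)
        rw [if_neg hlt, if_pos (by omega)]
        simp
  rw [Finset.sum_congr rfl (fun j _ => key1 j), Finset.sum_sub_distrib, hsum, zero_sub]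

theorem half_pos {N : ℕ} (w : Fin N → E) (ε : Fin N → ℝ) (hε : ∀ i, ε i = 1 ∨ ε i = -1)
    (s : Finset (Fin N)) :
    ∑ j ∈ s, (if ε j = 1 then w j else 0)
      = (1 / 2 : ℝ) • (∑ j ∈ s, w j + ∑ j ∈ s, ε j • w j) := by
  rw [← Finset.sum_add_distrib, Finset.smul_sum]
  refine Finset.sum_congr rfl fun j _ => ?_
  rcases hε j with h | h
  · rw [if_pos h, h, one_smul, ← two_smul ℝ, smul_smul]
    norm_num
  · have h1 : ¬ ε j = 1 := by rw [h]; norm_num
    rw [if_neg h1, h, neg_one_smul, add_neg_cancel, smul_zero]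

theorem half_neg {N : ℕ} (w : Fin N → E) (ε : Fin N → ℝ) (hε : ∀ i, ε i = 1 ∨ ε i = -1)
    (s : Finset (Fin N)) :
    ∑ j ∈ s, (if ε j = 1 then 0 else w j)
      = (1 / 2 : ℝ) • (∑ j ∈ s, w j - ∑ j ∈ s, ε j • w j) := by
  rw [← Finset.sum_sub_distrib, Finset.smul_sum]
  refine Finset.sum_congr rfl fun j _ => ?_
  rcases hε j with h | h
  · rw [if_pos h, h, one_smul, sub_self, smul_zero]
  · have h1 : ¬ ε j = 1 := by rw [h]; norm_num
    rw [if_neg h1, h, neg_one_smul, sub_neg_eq_add, ← two_smul ℝ, smul_smul]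
    norm_num

theorem norm_half_add (a b : E) :
    ‖(1 / 2 : ℝ) • (a + b)‖ ^ 2 ≤ (1 / 4) * (‖a‖ + ‖b‖) ^ 2 := by
  rw [norm_smul]
  have h1 : ‖(1 / 2 : ℝ)‖ = 1 / 2 := by norm_num
  rw [h1]
  have h2 := pow_le_pow_left₀ (norm_nonneg (a + b)) (norm_add_le a b) 2
  nlinarith

theorem norm_half_sub (a b : E) :
    ‖(1 / 2 : ℝ) • (a - b)‖ ^ 2 ≤ (1 / 4) * (‖a‖ + ‖b‖) ^ 2 := by
  rw [norm_smul]
  have h1 : ‖(1 / 2 : ℝ)‖ = 1 / 2 := by norm_num
  rw [h1]
  have h2 := pow_le_pow_left₀ (norm_nonneg (a - b)) (norm_sub_le a b) 2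
  nlinarith

/-- from signs to two rearrangements -/
theorem transfer {N : ℕ} (w : Fin N → E) (hsum : ∑ j, w j = 0) (ε : Fin N → ℝ)
    (hε : ∀ i, ε i = 1 ∨ ε i = -1) :
    ∃ τ₁ τ₂ : Equiv.Perm (Fin N),
      Phi (w ∘ τ₁) + Phi (w ∘ τ₂) ≤
        ∑ m : Fin N, ((1 / 4) * (‖∑ j ∈ Iic m, w j‖ + ‖∑ j ∈ Iic m, ε j • w j‖) ^ 2
          + (1 / 4) * (‖∑ j ∈ Iio m, w j‖ + ‖∑ j ∈ Iio m, ε j • w j‖) ^ 2) := by
  refine ⟨Tuple.sort (key (fun j => ε j = 1)), Tuple.sort (key (fun j => ¬ ε j = 1)), ?_⟩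
  rw [Phi_sort w _ (key_injective _), Phi_sort w _ (key_injective _), ← Finset.sum_add_distrib]
  refine Finset.sum_le_sum fun m _ => ?_
  by_cases hm : ε m = 1
  · rw [sum_key_of w (fun j => ε j = 1) m hm,
      sum_key_not w hsum (fun j => ¬ ε j = 1) m (not_not.mpr hm)]
    simp only [ite_not]
    rw [half_pos w ε hε, half_pos w ε hε, norm_neg]
    exact add_le_add (norm_half_add _ _) (norm_half_add _ _)
  · rw [sum_key_not w hsum (fun j => ε j = 1) m hm, sum_key_of w (fun j => ¬ ε j = 1) m hm]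
    simp only [ite_not]
    rw [half_neg w ε hε, half_neg w ε hε, norm_neg]
    have h1 := norm_half_sub (∑ j ∈ Iic m, w j) (∑ j ∈ Iic m, ε j • w j)
    have h2 := norm_half_sub (∑ j ∈ Iio m, w j) (∑ j ∈ Iio m, ε j • w j)
    linarith

/-- the sums over the strict initial segments are dominated by those over the closed ones -/
theorem shift_le {N : ℕ} (f : Fin N → E) :
    ∑ m : Fin N, ‖∑ j ∈ Iio m, f j‖ ^ 2 ≤ ∑ m : Fin N, ‖∑ j ∈ Iic m, f j‖ ^ 2 := by
  cases N with
  | zero => simp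
  | succ n =>
    rw [Fin.sum_univ_succ, Fin.sum_univ_castSucc (f := fun m => ‖∑ j ∈ Iic m, f j‖ ^ 2)]
    have h0 : (Iio (0 : Fin (n + 1))) = ∅ := by
      ext j
      simp
    have hs : ∀ i : Fin n, Iio i.succ = Iic i.castSucc := by
      intro i
      ext j
      simp only [mem_Iio, mem_Iic, Fin.lt_def, Fin.le_iff_val_le_val, Fin.val_succ,
        Fin.val_castSucc]
      omega
    rw [h0, Finset.sum_empty, norm_zero]
    simp only [hs]
    have : 0 ≤ ‖∑ j ∈ Iic (Fin.last n), f j‖ ^ 2 := by positivity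
    linarith

end core

section euclid

theorem sum_Iic_range {N : ℕ} {M : Type*} [AddCommMonoid M] (g : ℕ → M) (m : Fin N) :
    ∑ j ∈ Iic m, g (j : ℕ) = ∑ i ∈ range ((m : ℕ) + 1), g i := by
  have hm := m.isLt
  have hset : Iic m = univ.filter (fun j : Fin N => (j : ℕ) ≤ m) := by
    ext j
    simp only [mem_Iic, mem_filter, mem_univ, true_and, Fin.le_iff_val_le_val]
  have h1 : ∑ j ∈ Iic m, g (j : ℕ) = ∑ j : Fin N, if (j : ℕ) ≤ m then g (j : ℕ) else 0 := by
    rw [← Finset.sum_filter, hset]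
  rw [h1, Fin.sum_univ_eq_sum_range (fun i => if i ≤ (m : ℕ) then g i else 0) N,
    ← Finset.sum_filter]
  congr 1
  ext i
  simp only [mem_filter, mem_range]
  omega

/-- the sign theorem for weighted mean squares of initial sums, for a family indexed by `Fin N`
and with weight one on each nonempty initial segment -/
theorem signs_fin (d N : ℕ) (w : Fin N → EuclideanSpace ℝ (Fin d)) (hw : ∀ i, ‖w i‖ ≤ 1) :
    ∃ ε : Fin N → ℝ, (∀ i, ε i = 1 ∨ ε i = -1) ∧
      ∑ m : Fin N, ‖∑ j ∈ Iic m, ε j • w j‖ ^ 2 ≤ d * N := by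
  set v' : ℕ → EuclideanSpace ℝ (Fin d) := fun i => if h : i < N then w ⟨i, h⟩ else 0 with hv'
  have hv1 : ∀ i, ‖v' i‖ ≤ 1 := by
    intro i
    simp only [hv']
    split_ifs with h
    · exact hw _
    · simp
  obtain ⟨ε, hε, h⟩ := Vale.Agent.Lib.Helper9.P262L.mean_square_initial d N v' hv1
    (fun k => if k = 0 then 0 else 1) (fun k => by split_ifs <;> norm_num)
  refine ⟨fun i => ε i, fun i => hε i, ?_⟩
  rw [Finset.sum_range_succ', Finset.sum_range_succ'] at h
  simp only [Nat.succ_ne_zero, if_false, if_true, one_mul, zero_mul, add_zero, Finset.sum_const,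
    Finset.card_range, nsmul_eq_mul, mul_one] at h
  have h2 : ∀ m : Fin N, ∑ j ∈ Iic m, ε j • w j = ∑ i ∈ range ((m : ℕ) + 1), ε i • v' i := by
    intro m
    rw [← sum_Iic_range (fun i => ε i • v' i) m]
    refine Finset.sum_congr rfl fun j _ => ?_
    simp [hv']
  simp only [h2]
  rw [Fin.sum_univ_eq_sum_range (fun k => ‖∑ i ∈ range (k + 1), ε i • v' i‖ ^ 2) N]
  exact h

/-- **Mean-square rearrangement bound.** -/
theorem steinitz_mean_square (d N : ℕ) (v : Fin N → EuclideanSpace ℝ (Fin d))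
    (hv : ∀ i, ‖v i‖ ≤ 1) (hsum : ∑ i, v i = 0) :
    ∃ σ : Equiv.Perm (Fin N), ∑ k : Fin N, ‖∑ i ∈ Iic k, v (σ i)‖ ^ 2 ≤ d * N := by
  obtain ⟨σ₀, -, hmin⟩ := Finset.exists_min_image (univ : Finset (Equiv.Perm (Fin N)))
    (fun σ => Phi (v ∘ σ)) univ_nonempty
  refine ⟨σ₀, ?_⟩
  have hwsum : ∑ j, (v ∘ σ₀) j = 0 := by
    rw [← hsum]
    exact Equiv.sum_comp σ₀ v
  obtain ⟨ε, hε, hY⟩ := signs_fin d N (v ∘ σ₀) (fun i => hv _)
  obtain ⟨τ₁, τ₂, hτ⟩ := transfer (v ∘ σ₀) hwsum ε hε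
  have h1 : Phi (v ∘ σ₀) ≤ Phi ((v ∘ σ₀) ∘ τ₁) := hmin (σ₀ * τ₁) (mem_univ _)
  have h2 : Phi (v ∘ σ₀) ≤ Phi ((v ∘ σ₀) ∘ τ₂) := hmin (σ₀ * τ₂) (mem_univ _)
  have hX' := shift_le (v ∘ σ₀)
  have hY' := shift_le (fun j => ε j • (v ∘ σ₀) j)
  have hc₁ := Finset.sum_mul_sq_le_sq_mul_sq (univ : Finset (Fin N))
    (fun m => ‖∑ j ∈ Iic m, (v ∘ σ₀) j‖) (fun m => ‖∑ j ∈ Iic m, ε j • (v ∘ σ₀) j‖)
  have hc₂ := Finset.sum_mul_sq_le_sq_mul_sq (univ : Finset (Fin N))
    (fun m => ‖∑ j ∈ Iio m, (v ∘ σ₀) j‖) (fun m => ‖∑ j ∈ Iio m, ε j • (v ∘ σ₀) j‖)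
  have hexp : ∑ m : Fin N,
      ((1 / 4) * (‖∑ j ∈ Iic m, (v ∘ σ₀) j‖ + ‖∑ j ∈ Iic m, ε j • (v ∘ σ₀) j‖) ^ 2
        + (1 / 4) * (‖∑ j ∈ Iio m, (v ∘ σ₀) j‖ + ‖∑ j ∈ Iio m, ε j • (v ∘ σ₀) j‖) ^ 2)
      = (1 / 4) * (∑ m : Fin N, ‖∑ j ∈ Iic m, (v ∘ σ₀) j‖ ^ 2
          + 2 * ∑ m : Fin N, ‖∑ j ∈ Iic m, (v ∘ σ₀) j‖ * ‖∑ j ∈ Iic m, ε j • (v ∘ σ₀) j‖
          + ∑ m : Fin N, ‖∑ j ∈ Iic m, ε j • (v ∘ σ₀) j‖ ^ 2)
        + (1 / 4) * (∑ m : Fin N, ‖∑ j ∈ Iio m, (v ∘ σ₀) j‖ ^ 2
          + 2 * ∑ m : Fin N, ‖∑ j ∈ Iio m, (v ∘ σ₀) j‖ * ‖∑ j ∈ Iio m, ε j • (v ∘ σ₀) j‖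
          + ∑ m : Fin N, ‖∑ j ∈ Iio m, ε j • (v ∘ σ₀) j‖ ^ 2) := by
    simp only [Finset.mul_sum, ← Finset.sum_add_distrib]
    refine Finset.sum_congr rfl fun m _ => ?_
    ring
  rw [hexp] at hτ
  change Phi (v ∘ σ₀) ≤ d * N
  have hXdef : Phi (v ∘ σ₀) = ∑ m : Fin N, ‖∑ j ∈ Iic m, (v ∘ σ₀) j‖ ^ 2 := rfl
  have hX0 := Phi_nonneg (v ∘ σ₀)
  set X := Phi (v ∘ σ₀) with hX
  set Y := ∑ m : Fin N, ‖∑ j ∈ Iic m, ε j • (v ∘ σ₀) j‖ ^ 2 with hYdef
  set X' := ∑ m : Fin N, ‖∑ j ∈ Iio m, (v ∘ σ₀) j‖ ^ 2 with hX'def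
  set Y' := ∑ m : Fin N, ‖∑ j ∈ Iio m, ε j • (v ∘ σ₀) j‖ ^ 2 with hY'def
  set c₁ := ∑ m : Fin N, ‖∑ j ∈ Iic m, (v ∘ σ₀) j‖ * ‖∑ j ∈ Iic m, ε j • (v ∘ σ₀) j‖ with hc₁def
  set c₂ := ∑ m : Fin N, ‖∑ j ∈ Iio m, (v ∘ σ₀) j‖ * ‖∑ j ∈ Iio m, ε j • (v ∘ σ₀) j‖ with hc₂def
  rw [← hXdef] at hτ hc₁
  have hY0 : 0 ≤ Y := Finset.sum_nonneg fun _ _ => by positivity
  have hX'0 : 0 ≤ X' := Finset.sum_nonneg fun _ _ => by positivity
  have hY'0 : 0 ≤ Y' := Finset.sum_nonneg fun _ _ => by positivity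
  have hXY : X ≤ Y := by
    by_contra hlt
    rw [not_le] at hlt
    have hXpos : 0 < X := lt_of_le_of_lt hY0 hlt
    have hXY2 : X * Y < X * X := by nlinarith
    have hc₂' : c₂ ^ 2 ≤ X * Y := hc₂.trans (mul_le_mul hX' hY' hY'0 hX0)
    have hc1 : c₁ < X := by
      by_contra hge
      rw [not_lt] at hge
      nlinarith
    have hc2 : c₂ < X := by
      by_contra hge
      rw [not_lt] at hge
      nlinarith
    linarith
  exact hXY.trans hY

end euclid

section sharp

/-- `d` unit coordinate vectors followed by `d` copies of minus their mean -/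
noncomputable def fam (d : ℕ) (i : Fin (2 * d)) : EuclideanSpace ℝ (Fin d) :=
  WithLp.toLp 2 (fun c : Fin d =>
    (if (i : ℕ) = c then (1 : ℝ) else 0) - (if (i : ℕ) < d then 0 else 1 / (d : ℝ)))

theorem fam_apply (d : ℕ) (i : Fin (2 * d)) (c : Fin d) :
    fam d i c
      = (if (i : ℕ) = c then (1 : ℝ) else 0) - (if (i : ℕ) < d then 0 else 1 / (d : ℝ)) :=
  rfl

theorem norm_fam_le (d : ℕ) (i : Fin (2 * d)) : ‖fam d i‖ ≤ 1 := by
  have h : ‖fam d i‖ ^ 2 ≤ 1 := by
    rw [EuclideanSpace.real_norm_sq_eq]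
    simp only [fam_apply]
    by_cases hi : (i : ℕ) < d
    · simp only [hi, if_true, sub_zero]
      have h1 : ∀ c : Fin d, ((if (i : ℕ) = c then (1 : ℝ) else 0)) ^ 2
          = if c = ⟨i, hi⟩ then 1 else 0 := by
        intro c
        by_cases hc : c = ⟨i, hi⟩
        · subst hc
          simp
        · have h2 : ¬ (i : ℕ) = c := fun h => hc (Fin.ext h.symm)
          simp [h2, hc]
      simp only [h1, Finset.sum_ite_eq', Finset.mem_univ, if_true, le_refl]
    · have hd : 0 < d := by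
        have := i.isLt
        omega
      have h1 : ∀ c : Fin d, ¬ (i : ℕ) = c := fun c h => hi (h ▸ c.isLt)
      simp only [h1, hi, if_false, zero_sub, neg_sq, Finset.sum_const, Finset.card_univ,
        Fintype.card_fin, nsmul_eq_mul]
      have hd' : (1 : ℝ) ≤ d := by exact_mod_cast hd
      have h2 : (d : ℝ) * (1 / d) ^ 2 = 1 / d := by
        field_simp
      rw [h2]
      exact (div_le_one (by positivity)).mpr hd'
  nlinarith [norm_nonneg (fam d i)]

theorem sum_fam (d : ℕ) : ∑ i, fam d i = 0 := by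
  ext c
  have hd : 0 < d := by
    have := c.isLt
    omega
  rw [show (∑ i, fam d i) c = ∑ i, fam d i c by simp]
  simp only [fam_apply, Finset.sum_sub_distrib]
  rw [Fin.sum_univ_eq_sum_range (fun i => if i = (c : ℕ) then (1 : ℝ) else 0) (2 * d),
    Fin.sum_univ_eq_sum_range (fun i => if i < d then (0 : ℝ) else 1 / (d : ℝ)) (2 * d),
    Finset.sum_ite_eq', two_mul, Finset.sum_range_add]
  have h1 : (c : ℕ) ∈ range (d + d) := by
    have := c.isLt
    simp only [mem_range]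
    omega
  have h2 : ∑ x ∈ range d, (if x < d then (0 : ℝ) else 1 / (d : ℝ)) = 0 := by
    refine Finset.sum_eq_zero fun x hx => ?_
    rw [if_pos (mem_range.mp hx)]
  have h3 : ∑ x ∈ range d, (if d + x < d then (0 : ℝ) else 1 / (d : ℝ)) = 1 := by
    have : ∀ x ∈ range d, (if d + x < d then (0 : ℝ) else 1 / (d : ℝ)) = 1 / (d : ℝ) := by
      intro x _
      rw [if_neg (by omega)]
    rw [Finset.sum_congr rfl this, Finset.sum_const, Finset.card_range, nsmul_eq_mul]
    field_simp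
  rw [if_pos h1, h2, h3]
  simp

/-- the squared norm of a vector with coordinates `1 - t` on `J` and `-t` elsewhere -/
theorem card_mul_le {d : ℕ} (J : Finset (Fin d)) (t : ℝ) :
    (J.card : ℝ) * (d - J.card) ≤ d * ∑ c : Fin d, ((if c ∈ J then (1 : ℝ) else 0) - t) ^ 2 := by
  have h1 : ∀ c : Fin d, ((if c ∈ J then (1 : ℝ) else 0) - t) ^ 2
      = (if c ∈ J then (1 : ℝ) else 0) * (1 - 2 * t) + t ^ 2 := by
    intro c
    by_cases hc : c ∈ J
    · simp only [hc, if_true]; ring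
    · simp only [hc, if_false]; ring
  simp only [h1, Finset.sum_add_distrib, ← Finset.sum_mul, Finset.sum_const, Finset.card_univ,
    Fintype.card_fin, nsmul_eq_mul]
  have h2 : ∑ c : Fin d, (if c ∈ J then (1 : ℝ) else 0) = J.card := by
    rw [Finset.sum_boole]
    congr 2
    ext c
    simp
  rw [h2]
  nlinarith [sq_nonneg ((J.card : ℝ) - d * t)]

theorem sum_closed (D : ℝ) (n : ℕ) :
    ∑ r ∈ range n, ((r : ℝ) + 1) * (D - ((r : ℝ) + 1))
      = D * (n * (n + 1) / 2) - n * (n + 1) * (2 * n + 1) / 6 := by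
  induction n with
  | zero => simp
  | succ n ih =>
    rw [Finset.sum_range_succ, ih]
    push_cast
    ring

/-- for an injective `κ`, the ranks `#{c' | κ c' ≤ κ c}` run through `1, ..., d` -/
theorem sum_rank {d M : ℕ} (κ : Fin d → Fin M) (hκ : Function.Injective κ) (h : ℕ → ℝ) :
    ∑ c : Fin d, h (univ.filter (fun c' => κ c' ≤ κ c)).card = ∑ r ∈ range d, h (r + 1) := by
  have hmono : StrictMono (κ ∘ Tuple.sort κ) :=
    (Tuple.monotone_sort κ).strictMono_of_injective (hκ.comp (Tuple.sort κ).injective)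
  rw [← Equiv.sum_comp (Tuple.sort κ) (fun c => h (univ.filter (fun c' => κ c' ≤ κ c)).card),
    ← Fin.sum_univ_eq_sum_range (fun r => h (r + 1)) d]
  refine Finset.sum_congr rfl fun r _ => ?_
  have hset : univ.filter (fun c' => κ c' ≤ κ (Tuple.sort κ r))
      = (Iic r).map (Tuple.sort κ).toEmbedding := by
    ext c'
    simp only [mem_filter, mem_univ, true_and, mem_map, mem_Iic, Equiv.coe_toEmbedding]
    constructor
    · intro hle
      refine ⟨(Tuple.sort κ).symm c', ?_, by simp⟩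
      have : (κ ∘ Tuple.sort κ) ((Tuple.sort κ).symm c') ≤ (κ ∘ Tuple.sort κ) r := by
        simpa using hle
      exact hmono.le_iff_le.mp this
    · rintro ⟨i, hi, rfl⟩
      exact hmono.monotone hi
  rw [hset, Finset.card_map, Fin.card_Iic]

theorem fam_lower (d : ℕ) (σ : Equiv.Perm (Fin (2 * d))) :
    ((d : ℝ) ^ 2 - 1) / 6 ≤ ∑ k : Fin (2 * d), ‖∑ i ∈ Iic k, fam d (σ i)‖ ^ 2 := by
  rcases Nat.eq_zero_or_pos d with hd | hd
  · subst hd
    have : ∀ k : Fin (2 * 0), 0 ≤ ‖∑ i ∈ Iic k, fam 0 (σ i)‖ ^ 2 := fun k => by positivity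
    have h0 := Finset.sum_nonneg (s := univ) (fun k _ => this k)
    norm_num at h0 ⊢
  have hdR : (0 : ℝ) < d := by exact_mod_cast hd
  -- the position of the `c`-th coordinate vector
  let emb : Fin d → Fin (2 * d) := fun c => ⟨c, by have := c.isLt; omega⟩
  let κ : Fin d → Fin (2 * d) := fun c => σ.symm (emb c)
  have hκ : Function.Injective κ := by
    intro c c' hcc
    have : emb c = emb c' := σ.symm.injective hcc
    exact Fin.ext (by simpa [emb] using congrArg Fin.val this)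
  -- each squared norm is bounded below through the number of coordinate vectors used so far
  have hk : ∀ k : Fin (2 * d),
      ((univ.filter (fun c => κ c ≤ k)).card : ℝ) * (d - (univ.filter (fun c => κ c ≤ k)).card) / d
        ≤ ‖∑ i ∈ Iic k, fam d (σ i)‖ ^ 2 := by
    intro k
    rw [EuclideanSpace.real_norm_sq_eq, div_le_iff₀ hdR, mul_comm _ (d : ℝ)]
    have hcoord : ∀ c : Fin d, (∑ i ∈ Iic k, fam d (σ i)) c
        = (if c ∈ univ.filter (fun c => κ c ≤ k) then (1 : ℝ) else 0)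
          - ∑ i ∈ Iic k, (if ((σ i : Fin (2 * d)) : ℕ) < d then 0 else 1 / (d : ℝ)) := by
      intro c
      rw [show (∑ i ∈ Iic k, fam d (σ i)) c = ∑ i ∈ Iic k, fam d (σ i) c by simp]
      simp only [fam_apply, Finset.sum_sub_distrib]
      congr 1
      have h1 : ∀ i : Fin (2 * d), (((σ i : Fin (2 * d)) : ℕ) = c) ↔ i = κ c := by
        intro i
        constructor
        · intro h
          have : σ i = emb c := Fin.ext h
          exact (Equiv.eq_symm_apply σ).mpr this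
        · intro h
          rw [h]
          simp [κ, emb]
      simp only [h1, Finset.sum_ite_eq', mem_Iic, mem_filter, mem_univ, true_and]
    simp only [hcoord]
    exact card_mul_le _ _
  -- sum over the positions of the coordinate vectors only
  have hsum1 : ∑ c : Fin d, ((univ.filter (fun c' => κ c' ≤ κ c)).card : ℝ)
        * (d - (univ.filter (fun c' => κ c' ≤ κ c)).card) / d
      ≤ ∑ k : Fin (2 * d), ‖∑ i ∈ Iic k, fam d (σ i)‖ ^ 2 := by
    calc ∑ c : Fin d, ((univ.filter (fun c' => κ c' ≤ κ c)).card : ℝ)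
          * (d - (univ.filter (fun c' => κ c' ≤ κ c)).card) / d
        ≤ ∑ c : Fin d, ‖∑ i ∈ Iic (κ c), fam d (σ i)‖ ^ 2 :=
          Finset.sum_le_sum fun c _ => hk (κ c)
      _ = ∑ k ∈ univ.image κ, ‖∑ i ∈ Iic k, fam d (σ i)‖ ^ 2 := by
          rw [Finset.sum_image (fun a _ b _ hab => hκ hab)]
      _ ≤ ∑ k : Fin (2 * d), ‖∑ i ∈ Iic k, fam d (σ i)‖ ^ 2 :=
          Finset.sum_le_sum_of_subset_of_nonneg (Finset.subset_univ _)
            (fun k _ _ => by positivity)
  have hsum2 := sum_rank κ hκ (fun j => (j : ℝ) * (d - j) / d)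
  have hsum3 := sum_closed (d : ℝ) d
  have hsum4 : ∑ r ∈ range d, (((r + 1 : ℕ) : ℝ)) * ((d : ℝ) - ((r + 1 : ℕ) : ℝ)) / d
      = ((d : ℝ) ^ 2 - 1) / 6 := by
    rw [← Finset.sum_div]
    push_cast
    rw [hsum3]
    field_simp
    ring
  rw [← hsum4, ← hsum2]
  exact hsum1

end sharp

end Vale.Agent.Lib.Helper7.P262S
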